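import Vale.Agent.P110.Assemble

namespace Vale.Agent.Results.P110.Ultraflat

theorem result :
    (∀ c : ℝ, 0 < c → ∃ N₀ : ℕ, ∀ N : ℕ, N₀ ≤ N → ∃ ε : Fin N → ℤ, (∀ k, ε k = 1 ∨ ε k = -1) ∧
      ∀ z : ℂ, ‖z‖ = 1 →
        (1 - c) * Real.sqrt N ≤ ‖∑ k : Fin N, (ε k : ℂ) * z ^ (k : ℕ)‖ ∧
        ‖∑ k : Fin N, (ε k : ℂ) * z ^ (k : ℕ)‖ ≤ (1 + c) * Real.sqrt N) ∧
    ∃ ε : (N : ℕ) → Fin N → ℤ, (∀ N k, ε N k = 1 ∨ ε N k = -1) ∧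
      ∀ δ : ℝ, 0 < δ → ∃ N₀ : ℕ, ∀ N : ℕ, N₀ ≤ N → ∀ z : ℂ, ‖z‖ = 1 →
        |‖∑ k : Fin N, (ε N k : ℂ) * z ^ (k : ℕ)‖ / Real.sqrt N - 1| ≤ δ := by
  refine ⟨fun c hc => ?_, Vale.Agent.P110.exists_sequence⟩
  obtain ⟨N0, h⟩ := Vale.Agent.P110.exists_littlewood c hc
  refine ⟨N0, fun N hN => ?_⟩
  obtain ⟨-, s, h1, h2⟩ := h N hN
  refine ⟨s, h1, fun z hz => ?_⟩
  have h3 := abs_le.1 (h2 z hz)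
  constructor <;> linarith [h3.1, h3.2]

end Vale.Agent.Results.P110.Ultraflat
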